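import Vale.Agent.P046.Bdl.B6

set_option autoImplicit false

open scoped Classical
open Filter Vale.Agent.P046

/-- The number `F_n` of edges left by random triangle removal satisfies
`F_n / n^{3/2} → 1 / (2 √2)` in mean and in probability, and
`E[F_n] / n^{3/2} → 1 / (2 √2)`.  The first clause records that every graph in the support of
`finalGraph n` is triangle-free, so that the process has really stopped. -/
theorem Vale.Agent.Results.P046.ExactConstant.result :
    (∀ n : ℕ, ∀ H ∈ (finalGraph n).support, H.CliqueFree 3) ∧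
    (∀ ε : ℝ, 0 < ε → Tendsto (fun n : ℕ => ((finalGraph n).toOuterMeasure
      {G | ε ≤ |(numEdges G : ℝ) / (n : ℝ) ^ (3 / 2 : ℝ) - 1 / (2 * √2)|}).toReal)
      atTop (nhds 0)) ∧
    Tendsto (fun n : ℕ => (∑ G, (finalGraph n G).toReal * (numEdges G : ℝ)) /
      (n : ℝ) ^ (3 / 2 : ℝ)) atTop (nhds (1 / (2 * √2))) ∧
    Tendsto (fun n : ℕ => ∑ G, (finalGraph n G).toReal *
      |(numEdges G : ℝ) / (n : ℝ) ^ (3 / 2 : ℝ) - 1 / (2 * √2)|) atTop (nhds 0) :=
  ⟨fun _ H hH => finalGraph_cliqueFree H hH, fun ε hε => Lv.prob_limit Lv.core ε hε,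
    Lv.mean_limit Lv.core, Lv.l1_limit Lv.core⟩
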