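import Vale.Agent.P046.Bdl.B6

set_option autoImplicit false

open scoped Classical
open Vale.Agent.P046

/-- The number `F_n` of edges left by random triangle removal has order `n^{3/2}`
(the conjecture of Bollobas and Erdos): `E[F_n^2] ≤ K n^3`, hence `E[F_n] ≤ K n^{3/2}` and
`P(F_n ≥ lam n^{3/2}) ≤ K / lam^2`; and `E[F_n] ≥ c n^{3/2}`, `P(F_n ≥ c n^{3/2}) ≥ c` for
large `n`. The first clause records that every graph in the support of `finalGraph n` is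
triangle-free, so that the process has really stopped. -/
theorem Vale.Agent.Results.P046.ThetaThreeHalves.result :
    (∀ n : ℕ, ∀ H ∈ (finalGraph n).support, H.CliqueFree 3) ∧
    (∃ K : ℝ, 0 < K ∧ ∀ n : ℕ, 2 ≤ n →
      (∑ G, (finalGraph n G).toReal * (numEdges G : ℝ) ^ 2 ≤ K * (n : ℝ) ^ 3) ∧
      (∑ G, (finalGraph n G).toReal * (numEdges G : ℝ) ≤ K * (n : ℝ) ^ (3 / 2 : ℝ)) ∧
      ∀ lam : ℝ, 0 < lam →
        ((finalGraph n).toOuterMeasure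
          {G | lam * (n : ℝ) ^ (3 / 2 : ℝ) ≤ (numEdges G : ℝ)}).toReal ≤ K / lam ^ 2) ∧
    (∃ c : ℝ, 0 < c ∧ ∃ n0 : ℕ, ∀ n : ℕ, n0 ≤ n →
      (c * (n : ℝ) ^ (3 / 2 : ℝ) ≤ ∑ G, (finalGraph n G).toReal * (numEdges G : ℝ)) ∧
      c ≤ ((finalGraph n).toOuterMeasure
          {G | c * (n : ℝ) ^ (3 / 2 : ℝ) ≤ (numEdges G : ℝ)}).toReal) :=
  ⟨fun _ H hH => finalGraph_cliqueFree H hH, C.Fi.upper_theta, C.Fi.lower_theta⟩
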